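import Mathlib
import Vale.Agent.Lib.P243.CapMain
import Vale.Agent.Lib.P243.R3.Defs
open MeasureTheory Set Vale.Agent.Lib.P243

/-!
# P243, `r_3 > 1/3`, job J13: transfer of the model chord bound and of its equality case
to Euclidean 3-space through the coordinate map `Cap.triE` of an orthonormal basis.
Spare copy: the declarations live in the namespace `H61`, so that they do not clash with the
copy in `R3/helper91/Transfer3.lean`.
-/

namespace Vale.Agent.Lib.P243.R3.H61

/-- The model statements applied to the image of `K` under the coordinate map of an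
orthonormal basis `c`, for a chord from `u` to `v` that is parallel to `c 2` and points in the
direction of `c 2`. -/
theorem M3e_aux
    (hle : ∀ (K : Set (ℝ × (ℝ × ℝ))), IsCompact K → Convex ℝ K → ∀ (z0 l : ℝ) (o : ℝ × ℝ),
      0 ≤ l → (z0, o) ∈ K → (z0 + l, o) ∈ K →
      ENNReal.ofReal l * volume (Prod.snd '' K) ≤ 3 * volume K)
    (hstar : ∀ (K : Set (ℝ × (ℝ × ℝ))), IsCompact K → Convex ℝ K → (interior K).Nonempty →
      ∀ (z0 l : ℝ) (o : ℝ × ℝ), 0 < l → (z0, o) ∈ K → (z0 + l, o) ∈ K →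
      ENNReal.ofReal l * volume (Prod.snd '' K) = 3 * volume K →
      ∀ x ∈ frontier K, segment ℝ ((z0, o) : ℝ × (ℝ × ℝ)) x ⊆ frontier K ∨
        segment ℝ ((z0 + l, o) : ℝ × (ℝ × ℝ)) x ⊆ frontier K)
    {K : Set E3} (hK : Body K) (c : OrthonormalBasis (Fin 3) ℝ E3)
    {u v : E3} (hu : u ∈ K) (hv : v ∈ K)
    (ho : planeCoords (c 0) (c 1) u = planeCoords (c 0) (c 1) v)
    {l : ℝ} (hl : l = inner ℝ v (c 2) - inner ℝ u (c 2)) (hl0 : 0 ≤ l) :
    ENNReal.ofReal l * volume (Prod.snd '' (Cap.triE c '' K)) ≤ 3 * volume (Cap.triE c '' K) ∧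
      (0 < l →
        ENNReal.ofReal l * volume (Prod.snd '' (Cap.triE c '' K)) = 3 * volume (Cap.triE c '' K) →
        ∀ x ∈ frontier K, segment ℝ u x ⊆ frontier K ∨ segment ℝ v x ⊆ frontier K) := by
  have hΦu : Cap.triE c u = (inner ℝ u (c 2), planeCoords (c 0) (c 1) u) := Cap.triE_apply c u
  have hΦv : Cap.triE c v = (inner ℝ u (c 2) + l, planeCoords (c 0) (c 1) u) := by
    rw [Cap.triE_apply, ← ho]
    refine Prod.ext ?_ rfl
    show inner ℝ v (c 2) = inner ℝ u (c 2) + l
    rw [hl]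
    ring
  have hK'c : IsCompact (Cap.triE c '' K) := hK.compact.image (Cap.triE c).continuous
  have hK'conv : Convex ℝ (Cap.triE c '' K) := hK.conv.linear_image (Cap.triE c).toLinearMap
  have h0 : (inner ℝ u (c 2), planeCoords (c 0) (c 1) u) ∈ Cap.triE c '' K := ⟨u, hu, hΦu⟩
  have h1 : (inner ℝ u (c 2) + l, planeCoords (c 0) (c 1) u) ∈ Cap.triE c '' K := ⟨v, hv, hΦv⟩
  refine ⟨hle _ hK'c hK'conv _ l _ hl0 h0 h1, ?_⟩
  intro hlpos heq x hx
  have himg_int : Cap.triE c '' interior K = interior (Cap.triE c '' K) :=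
    (Cap.triE c).toHomeomorph.image_interior K
  have himg_fr : Cap.triE c '' frontier K = frontier (Cap.triE c '' K) :=
    (Cap.triE c).toHomeomorph.image_frontier K
  have hint : (interior (Cap.triE c '' K)).Nonempty := by
    rw [← himg_int]
    exact hK.int.image _
  have hfx : Cap.triE c x ∈ frontier (Cap.triE c '' K) := by
    rw [← himg_fr]
    exact ⟨x, hx, rfl⟩
  have hpull : ∀ w : E3, segment ℝ (Cap.triE c w) (Cap.triE c x) ⊆ frontier (Cap.triE c '' K) →
      segment ℝ w x ⊆ frontier K := by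
    intro w hw y hy
    obtain ⟨α, β, hα, hβ, hαβ, rfl⟩ := hy
    have h2 : Cap.triE c (α • w + β • x) ∈ frontier (Cap.triE c '' K) := by
      apply hw
      exact ⟨α, β, hα, hβ, hαβ, by rw [map_add, map_smul, map_smul]⟩
    rw [← himg_fr] at h2
    obtain ⟨y', hy', hyy⟩ := h2
    have h3 : y' = α • w + β • x := (Cap.triE c).injective hyy
    rw [← h3]
    exact hy'
  rcases hstar _ hK'c hK'conv hint _ l _ hlpos h0 h1 heq _ hfx with h | h
  · left
    apply hpull u
    rw [hΦu]
    exact h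
  · right
    apply hpull v
    rw [hΦv]
    exact h

/-- J13. Transfer of the model statements to Euclidean 3-space. -/
theorem M3e_transfer
    (hvol : ∀ (c : OrthonormalBasis (Fin 3) ℝ E3) (X : Set E3),
      volume (Cap.triE c '' X) = volume X)
    (hA : ∀ K : Set E3, IsCompact K → Convex ℝ K → ∀ a b : E3, OrthoPair a b → ∀ w : E3,
      inner ℝ w a = 0 → inner ℝ w b = 0 →
      Ahat K w = ‖w‖ * (volume (planeCoords a b '' K)).toReal)
    (hB : ∀ w : E3, ∃ a b : E3, OrthoPair a b ∧ inner ℝ w a = 0 ∧ inner ℝ w b = 0)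
    (hle : ∀ (K : Set (ℝ × (ℝ × ℝ))), IsCompact K → Convex ℝ K → ∀ (z0 l : ℝ) (o : ℝ × ℝ),
      0 ≤ l → (z0, o) ∈ K → (z0 + l, o) ∈ K →
      ENNReal.ofReal l * volume (Prod.snd '' K) ≤ 3 * volume K)
    (hstar : ∀ (K : Set (ℝ × (ℝ × ℝ))), IsCompact K → Convex ℝ K → (interior K).Nonempty →
      ∀ (z0 l : ℝ) (o : ℝ × ℝ), 0 < l → (z0, o) ∈ K → (z0 + l, o) ∈ K →
      ENNReal.ofReal l * volume (Prod.snd '' K) = 3 * volume K →
      ∀ x ∈ frontier K, segment ℝ ((z0, o) : ℝ × (ℝ × ℝ)) x ⊆ frontier K ∨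
        segment ℝ ((z0 + l, o) : ℝ × (ℝ × ℝ)) x ⊆ frontier K)
    {K : Set E3} (hK : Body K) {p q : E3} (hp : p ∈ K) (hq : q ∈ K) :
    Ahat K (q - p) ≤ 3 * (volume K).toReal ∧
      (p ≠ q → Ahat K (q - p) = 3 * (volume K).toReal → ∀ x ∈ frontier K,
        segment ℝ p x ⊆ frontier K ∨ segment ℝ q x ⊆ frontier K) := by
  obtain ⟨a, b, hab, hwa, hwb⟩ := hB (q - p)
  obtain ⟨c, hc0, hc1⟩ := exists_basis_three finrank_E3 a b hab.1 hab.2.1
    (by rw [real_inner_comm]; exact hab.2.2)
  have ho : planeCoords (c 0) (c 1) p = planeCoords (c 0) (c 1) q := by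
    rw [hc0, hc1]
    unfold planeCoords
    have e1 : inner ℝ q a - inner ℝ p a = 0 := by
      rw [← inner_sub_left]
      exact hwa
    have e2 : inner ℝ q b - inner ℝ p b = 0 := by
      rw [← inner_sub_left]
      exact hwb
    rw [Prod.mk.injEq]
    constructor <;> linarith
  obtain ⟨σ, hσ⟩ : ∃ σ : ℝ, σ = inner ℝ q (c 2) - inner ℝ p (c 2) := ⟨_, rfl⟩
  have hnorm : ‖q - p‖ = |σ| := by
    have hv : q - p = σ • c 2 := by
      have h1 := c.sum_repr' (q - p)
      rw [Fin.sum_univ_three] at h1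
      have z0 : inner ℝ (c 0) (q - p) = 0 := by
        rw [real_inner_comm, hc0]
        exact hwa
      have z1 : inner ℝ (c 1) (q - p) = 0 := by
        rw [real_inner_comm, hc1]
        exact hwb
      have z2 : inner ℝ (c 2) (q - p) = σ := by
        rw [real_inner_comm, inner_sub_left, hσ]
      rw [z0, z1, z2, zero_smul, zero_smul, zero_add, zero_add] at h1
      exact h1.symm
    have hc2 : ‖c 2‖ = 1 := c.orthonormal.norm_eq_one 2
    rw [hv, norm_smul, Real.norm_eq_abs, hc2, mul_one]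
  have hsnd : Prod.snd '' (Cap.triE c '' K) = planeCoords a b '' K := by
    rw [image_image]
    apply image_congr
    intro x _
    rw [Cap.triE_apply, hc0, hc1]
  have hvolK : volume (Cap.triE c '' K) = volume K := hvol c K
  have hAhat : Ahat K (q - p) = ‖q - p‖ * (volume (planeCoords a b '' K)).toReal :=
    hA K hK.compact hK.conv a b hab (q - p) hwa hwb
  have hKfin : volume K ≠ ⊤ := hK.compact.measure_lt_top.ne
  have hPfin : volume (planeCoords a b '' K) ≠ ⊤ := by
    rw [← hsnd]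
    exact ((hK.compact.image (Cap.triE c).continuous).image continuous_snd).measure_lt_top.ne
  have key : ENNReal.ofReal |σ| * volume (planeCoords a b '' K) ≤ 3 * volume K ∧
      (0 < |σ| → ENNReal.ofReal |σ| * volume (planeCoords a b '' K) = 3 * volume K →
        ∀ x ∈ frontier K, segment ℝ p x ⊆ frontier K ∨ segment ℝ q x ⊆ frontier K) := by
    rw [← hsnd, ← hvolK]
    rcases le_total 0 σ with hσ0 | hσ0
    · rw [abs_of_nonneg hσ0]
      exact M3e_aux hle hstar hK c hp hq ho hσ hσ0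
    · rw [abs_of_nonpos hσ0]
      have h2 := M3e_aux hle hstar hK c hq hp ho.symm (l := -σ) (by rw [hσ]; ring) (by linarith)
      exact ⟨h2.1, fun h3 h4 x hx => (h2.2 h3 h4 x hx).symm⟩
  rw [hAhat, hnorm]
  constructor
  · have h := ENNReal.toReal_mono (ENNReal.mul_ne_top (by norm_num) hKfin) key.1
    rw [ENNReal.toReal_mul, ENNReal.toReal_mul, ENNReal.toReal_ofReal (abs_nonneg σ)] at h
    simpa using h
  · intro hpq heq x hx
    have hpos : 0 < |σ| := by
      rw [← hnorm, norm_pos_iff, sub_ne_zero]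
      exact fun h => hpq h.symm
    apply key.2 hpos _ x hx
    rw [← ENNReal.ofReal_toReal hPfin, ← ENNReal.ofReal_mul (abs_nonneg σ), heq,
      ENNReal.ofReal_mul (by norm_num), ENNReal.ofReal_toReal hKfin]
    norm_num

end Vale.Agent.Lib.P243.R3.H61
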